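import Vale.Agent.P141.H315.Process

/-!
# P141, polylog bound: the two grids of intervals (one-third trick)

`gr c s`: at time `k` the intervals of length `2 ^ (k + c)` with end points in `2 ^ (k + c) ℤ - s`.
`shf L false = 0`, `shf L true = (4 ^ L - 1) / 3`.  Every interval of length `2 ^ (k + 5)` is contained
in one interval of time `k` (length `2 ^ (k + 7)`) of one of the two grids `gr 7 (shf L b)`.
-/

namespace Vale.Agent.P141.PL.H95

open Finset
open Vale.Agent.P141.H315 (Grid)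

/-- The interval of time `k` of the point `x`. -/
noncomputable def cbz (c : ℕ) (s : ℤ) (k : ℕ) (x : ℤ) : Finset ℤ :=
  Ico (2 ^ (k + c) * ((x + s) / 2 ^ (k + c)) - s)
    (2 ^ (k + c) * ((x + s) / 2 ^ (k + c)) - s + 2 ^ (k + c))

theorem mem_cbz {c k : ℕ} {s x y : ℤ} :
    y ∈ cbz c s k x ↔ (y + s) / 2 ^ (k + c) = (x + s) / 2 ^ (k + c) := by
  unfold cbz
  have h2 : (0 : ℤ) < 2 ^ (k + c) := by positivity
  rw [mem_Ico]
  constructor
  · rintro ⟨h, h'⟩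
    refine le_antisymm ?_ ?_
    · exact Int.lt_add_one_iff.mp (Int.ediv_lt_of_lt_mul h2 (by linarith))
    · exact Int.le_ediv_of_mul_le h2 (by linarith)
  · intro h
    rw [← h]
    have h3 := Int.mul_ediv_add_emod (y + s) (2 ^ (k + c))
    have h4 := Int.emod_nonneg (y + s) h2.ne'
    have h5 := Int.emod_lt_of_pos (y + s) h2
    constructor <;> linarith

theorem card_cbz (c : ℕ) (s : ℤ) (k : ℕ) (x : ℤ) : (cbz c s k x).card = 2 ^ (k + c) := by
  unfold cbz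
  rw [Int.card_Ico]
  have : (2 ^ (k + c) * ((x + s) / 2 ^ (k + c)) - s + 2 ^ (k + c) -
      (2 ^ (k + c) * ((x + s) / 2 ^ (k + c)) - s) : ℤ) = ((2 ^ (k + c) : ℕ) : ℤ) := by
    push_cast; ring
  rw [this, Int.toNat_natCast]

theorem cbz_sub (c : ℕ) (s : ℤ) (k : ℕ) (x : ℤ) : cbz c s k x ⊆ cbz c s (k + 1) x := by
  intro y hy
  rw [mem_cbz] at hy ⊢
  have h : ∀ z : ℤ, z / 2 ^ (k + 1 + c) = z / 2 ^ (k + c) / 2 := by
    intro z
    rw [Int.ediv_ediv_of_nonneg (by positivity)]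
    congr 1
    rw [show k + 1 + c = (k + c) + 1 by omega, pow_succ]
  rw [h, h, hy]

/-- The grid with the parameters `c`, `s`. -/
noncomputable def gr (c : ℕ) (s : ℤ) : Grid ℤ where
  cube := cbz c s
  mem k x := mem_cbz.mpr rfl
  eq_of_mem k x y h := by
    unfold cbz
    rw [mem_cbz.mp h]
  sub := cbz_sub c s

theorem mem_gr {c k : ℕ} {s x y : ℤ} :
    y ∈ (gr c s).cube k x ↔ (y + s) / 2 ^ (k + c) = (x + s) / 2 ^ (k + c) := mem_cbz

theorem gr_cube (c : ℕ) (s : ℤ) (k : ℕ) (x : ℤ) : (gr c s).cube k x =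
    Ico (2 ^ (k + c) * ((x + s) / 2 ^ (k + c)) - s)
      (2 ^ (k + c) * ((x + s) / 2 ^ (k + c)) - s + 2 ^ (k + c)) := rfl

theorem card_gr (c : ℕ) (s : ℤ) (k : ℕ) (x : ℤ) : ((gr c s).cube k x).card = 2 ^ (k + c) :=
  card_cbz c s k x

/-- The shift of the second grid. -/
def shf (L : ℕ) (b : Bool) : ℤ := if b then ((2 : ℤ) ^ (2 * L) - 1) / 3 else 0

theorem three_shf (L : ℕ) : 3 * shf L true = (2 : ℤ) ^ (2 * L) - 1 := by
  have h : (3 : ℤ) ∣ (2 : ℤ) ^ (2 * L) - 1 := by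
    rw [pow_mul]
    have : ((2 : ℤ) ^ 2) ^ L - 1 = ((2 : ℤ) ^ 2) ^ L - 1 ^ L := by rw [one_pow]
    rw [this]
    exact (show (3 : ℤ) = 2 ^ 2 - 1 by norm_num) ▸ sub_dvd_pow_sub_pow _ _ L
  unfold shf
  rw [if_pos rfl]
  exact Int.mul_ediv_cancel' h

theorem not_three_dvd (m : ℕ) : ¬ (3 : ℤ) ∣ 2 ^ m := by
  intro h
  have := Int.Prime.dvd_pow' (p := 3) (by norm_num) h
  norm_num at this

/-- An interval of an interval with no common interval of the grid contains a grid point. -/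
theorem exists_pt {c k : ℕ} {s a x : ℤ} (hax : a ≤ x) (h : x ∉ (gr c s).cube k a) :
    ∃ m : ℤ, a < 2 ^ (k + c) * m - s ∧ 2 ^ (k + c) * m - s ≤ x := by
  have h2 : (0 : ℤ) < 2 ^ (k + c) := by positivity
  rw [mem_gr] at h
  have h3 : (a + s) / 2 ^ (k + c) < (x + s) / 2 ^ (k + c) :=
    lt_of_le_of_ne (Int.ediv_le_ediv h2 (by linarith)) (Ne.symm h)
  refine ⟨(x + s) / 2 ^ (k + c), ?_, ?_⟩
  · have h4 := Int.lt_mul_of_ediv_lt h2 h3
    linarith
  · have h5 := Int.mul_ediv_add_emod (x + s) (2 ^ (k + c))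
    have h6 := Int.emod_nonneg (x + s) h2.ne'
    linarith

/-- **One-third trick.** -/
theorem exists_grid {L k : ℕ} (hL : k + 7 ≤ 2 * L) (a : ℤ) :
    ∃ b : Bool, ∀ x, a ≤ x → x < a + 2 ^ (k + 5) → x ∈ (gr 7 (shf L b)).cube k a := by
  by_contra hcon
  push Not at hcon
  obtain ⟨x, hx1, hx2, hx3⟩ := hcon false
  obtain ⟨y, hy1, hy2, hy3⟩ := hcon true
  obtain ⟨m, hm1, hm2⟩ := exists_pt hx1 hx3
  obtain ⟨m', hm'1, hm'2⟩ := exists_pt hy1 hy3
  have hs := three_shf L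
  have h0 : shf L false = 0 := rfl
  rw [h0] at hm1 hm2
  have hpow : (2 : ℤ) ^ (2 * L) = 2 ^ (k + 7) * 2 ^ (2 * L - (k + 7)) := by
    rw [← pow_add]; congr 1; omega
  have h7 : (2 : ℤ) ^ (k + 7) = 4 * 2 ^ (k + 5) := by
    rw [show k + 7 = (k + 5) + 2 by omega, pow_add]; ring
  have h32 : (32 : ℤ) ≤ 2 ^ (k + 5) := by
    have : (2 : ℤ) ^ 5 ≤ 2 ^ (k + 5) := pow_le_pow_right₀ (by norm_num) (by omega)
    linarith
  set P : ℤ := 2 ^ (k + 5) with hP
  set E : ℤ := 2 ^ (2 * L - (k + 7)) with hE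
  rw [hpow, h7] at hs
  rw [h7] at hm1 hm2 hm'1 hm'2
  set s : ℤ := shf L true with hsdef
  -- `t = 3 (m' - m) - E ≠ 0`
  have ht : 3 * (m' - m) - E ≠ 0 := by
    intro h
    exact not_three_dvd (2 * L - (k + 7)) ⟨m' - m, by rw [← hE]; linarith⟩
  have hub : 3 * (4 * P * m' - s - 4 * P * m) < 3 * P := by nlinarith
  have hlb : -(3 * P) < 3 * (4 * P * m' - s - 4 * P * m) := by nlinarith
  have hid : 3 * (4 * P * m' - s - 4 * P * m) = 4 * P * (3 * (m' - m) - E) + 1 := by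
    have : 3 * s = 4 * P * E - 1 := hs
    linear_combination (-1 : ℤ) * this
  rw [hid] at hub hlb
  rcases lt_or_gt_of_ne ht with h | h
  · have : 3 * (m' - m) - E ≤ -1 := by omega
    nlinarith
  · have : 1 ≤ 3 * (m' - m) - E := by omega
    nlinarith

/-- The whole window is inside the cube of each of its points. -/
theorem exists_grid' {L k : ℕ} (hL : k + 7 ≤ 2 * L) (a : ℤ) :
    ∃ b : Bool, ∀ x, a ≤ x → x < a + 2 ^ (k + 5) → ∀ y, a ≤ y → y < a + 2 ^ (k + 5) →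
      y ∈ (gr 7 (shf L b)).cube k x := by
  obtain ⟨b, hb⟩ := exists_grid hL a
  refine ⟨b, fun x hx hx' y hy hy' => ?_⟩
  rw [(gr 7 (shf L b)).eq_of_mem k a x (hb x hx hx')]
  exact hb y hy hy'

end Vale.Agent.P141.PL.H95
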