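import Vale.Agent.P141.PL.H314.RemNode

/-!
# P141, polylog bound: the final remainder of a root, functions of height `n ^ c`
-/

namespace Vale.Agent.P141.PL.H95

open Finset Vale.Agent.P141.PL.H620 Vale.Agent.P141.PL.H314

noncomputable section

/-- **The sum of the remainders of a root**, height `n ^ c`. -/
theorem rem_sum_pow {n K : ℕ} (c : ℕ) (hn : 1 ≤ n) (hK : K ≤ n) {V : ℤ} {δ Λ : ℝ} (hδ : 0 ≤ δ)
    (hδ' : δ * (n : ℝ) ^ (c + 1) ≤ 1) (hΛ : 1 ≤ Λ) {g0 g1 g2 : ℕ → ℤ → ℝ} {f3 : ℤ → ℝ}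
    (h0 : Comp n (ee n) δ Λ (fun k => lift 0 (g0 k)))
    (h1 : Comp n (ee n) δ Λ (fun k => lift 1 (g1 k)))
    (h2 : Comp n (ee n) δ Λ (fun k => lift 2 (g2 k))) (hf : ∀ x, |f3 x| ≤ (n : ℝ) ^ c) (o : ℤ)
    {S : Finset (ℕ × ℤ)} (hS : ∀ s ∈ S, 1 ≤ s.1 ∧ s.1 ≤ K ∧ s.2 / 2 ^ (K - s.1) = V) :
    ∑ s ∈ S, |nd o s.1 s.2 ![g0 s.1, g1 s.1, g2 s.1, f3]| ≤
      (9 ^ (c + 1) + 2) * Λ ^ 2 * 2 ^ K := by
  have hn1 : (1 : ℝ) ≤ n := by exact_mod_cast hn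
  have hn0 : (0 : ℝ) < n := by linarith
  set d : ℝ := (9 ^ (c + 1) + 2) * Λ ^ 2 / n with hd
  have hnode : ∀ s ∈ S, |nd o s.1 s.2 ![g0 s.1, g1 s.1, g2 s.1, f3]| ≤ 2 ^ s.1 * d := by
    intro s hs
    have hs' := hS s hs
    refine (rem_node (B := (n : ℝ) ^ (c + 1)) (ee_pos n).le ((ee_le n).trans (by norm_num)) hδ
      (by linarith) (by positivity) (by positivity) h0 h1 h2 hf hs'.1 (hs'.2.1.trans hK) o
      s.2).trans ?_
    refine mul_le_mul_of_nonneg_left ?_ (by positivity)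
    have e1 : Λ ^ (1 - ee n) ≤ Λ ^ 2 := by
      have h1 := ee_pos n
      calc Λ ^ (1 - ee n) ≤ Λ ^ (2 : ℝ) := Real.rpow_le_rpow_of_exponent_le hΛ (by linarith)
        _ = Λ ^ 2 := by exact_mod_cast Real.rpow_natCast Λ 2
    have e2 := pow_ee n hn (c + 1)
    have e3 : δ * (n : ℝ) ^ c ≤ 1 / n := by
      rw [le_div_iff₀ hn0]
      calc δ * (n : ℝ) ^ c * n = δ * (n : ℝ) ^ (c + 1) := by ring
        _ ≤ 1 := hδ'
    calc δ * (n : ℝ) ^ c * (Λ ^ (1 - ee n) * ((n : ℝ) ^ (c + 1)) ^ (2 * ee n)) +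
          2 * (n : ℝ) ^ c * Λ ^ 2 / (n : ℝ) ^ (c + 1)
        ≤ 1 / n * (Λ ^ 2 * 9 ^ (c + 1)) + 2 * Λ ^ 2 / n := by
          refine add_le_add ?_ (le_of_eq ?_)
          · exact mul_le_mul e3 (mul_le_mul e1 e2 (by positivity) (by positivity))
              (by positivity) (by positivity)
          · field_simp
            ring
      _ = d := by rw [hd]; ring
  calc _ ≤ ∑ s ∈ S, (2 : ℝ) ^ s.1 * d := sum_le_sum hnode
    _ = (∑ s ∈ S, (2 : ℝ) ^ s.1) * d := by rw [sum_mul]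
    _ ≤ (K * 2 ^ K) * d := by
        refine mul_le_mul_of_nonneg_right (sum_nodes hS) (by positivity)
    _ ≤ (n * 2 ^ K) * d := by
        gcongr
    _ = (9 ^ (c + 1) + 2) * Λ ^ 2 * 2 ^ K := by
        rw [hd]; field_simp

end

end Vale.Agent.P141.PL.H95
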