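import Vale.Agent.P141.PL.H95.Alive
import Vale.Agent.P141.PL.H95.RemC
import Vale.Agent.P141.PL.H315.NodeRole
import Vale.Agent.P141.PL.H318.Sys1
import Vale.Agent.P141.PL.H321.Roles
import Vale.Agent.P141.PL.H571.Defs

/-!
# P141, polylog bound: the root estimate

Inputs (as `Prop`s): `StProc` (the companions of the process), `StZero` (the companions of the
level `0`), `StNode` (the cost of an atom at the nodes).
-/

namespace Vale.Agent.P141.PL.H95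

open Finset
open Vale.Agent.P141.H315 (Grid dot)
open Vale.Agent.P141.PL.H315 (cube3 wt Tri put node_role le put_self put_ne ndL ndL_apply)
open Vale.Agent.P141.PL.H318 (CSys RG sys1 csz a1)
open Vale.Agent.P141.PL.H314 (nd Win node_walk nd_congr ee_pos ee_le)
open Vale.Agent.P141.PL.H571 (W RootTh)

noncomputable section

theorem csz_fc (j : Fin 4) : csz (fc j) ≤ 2 ^ 7 := by
  fin_cases j <;> simp [csz, fc]

/-- The system of tests of the face `j` at the level `δ`, grid shifted by `s`. -/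
def S1 (s : ℤ) (j : Fin 4) (n : ℕ) (δ : ℝ) (hδ : 0 < δ) : CSys (gr 7 s) (Pt × Tri) :=
  sys1 7 s (fc j) (csz_fc j) δ (ee n) hδ (ee_pos n).le ((ee_le n).trans (by norm_num))

theorem S1_a (s : ℤ) (j : Fin 4) (n : ℕ) (δ : ℝ) (hδ : 0 < δ) : (S1 s j n δ hδ).a = a1 (fc j) := rfl

theorem S1_W (s : ℤ) (j : Fin 4) (n : ℕ) (δ : ℝ) (hδ : 0 < δ) (l : ℕ) (Q : Finset ℤ)
    (t : Pt × Tri) : (S1 s j n δ hδ).W l Q t = wt δ (ee n) (cube3 l t.1) t.2 := rfl

/-- **PROC**: the alive part of the process is a companion. -/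
def StProc : Prop := ∃ A : ℝ, 1 ≤ A ∧ ∀ (n : ℕ) (s : ℤ) (j : Fin 4) (δ : ℝ) (hδ : 0 < δ)
  (F : ℤ → ℝ), 1 ≤ n → Comp n (ee n) (2 * δ) (A * (2 + Real.log n) ^ 2)
    (fun k => lift j (cut (gr 7 s) n F (RG (S1 s j n δ hδ) n F) k))

/-- **LEVEL 0**: the alive part of a bounded function is a companion. -/
def StZero : Prop := ∃ A : ℝ, 1 ≤ A ∧ ∀ (n : ℕ) (s : ℤ) (j : Fin 4) (H : ℝ) (F : ℤ → ℝ), 1 ≤ n →
  (∀ x, |F x| ≤ H) → Comp n (ee n) H (A * (2 + Real.log n) ^ 2)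
    (fun k => lift j (cut (gr 7 s) n F (fun _ => F) k))

/-- **COST AT THE NODES**, all faces. -/
def StNode : Prop := ∃ C : ℝ, ∃ q : ℕ, 0 ≤ C ∧ ∀ n : ℕ, 1 ≤ n → ∀ (δ Λ : ℝ), 0 < δ → 1 ≤ Λ →
  ∀ o : ℤ, (o = 1 ∨ o = -1) → ∀ (i : Fin 4) (h : ℕ → Fin 4 → ℤ → ℝ),
    (∀ j, j ≠ i → Comp n (ee n) δ Λ (fun k => lift j (h k j))) →
    ∀ l ≤ n, ∀ (p : Pt) (u : Tri) (𝒩 : Finset (ℕ × ℤ)), (∀ N ∈ 𝒩, 1 ≤ N.1 ∧ N.1 ≤ l) →
      ∑ N ∈ 𝒩, |nd o N.1 N.2 (put i (h N.1) (a1 (fc i) l (p, u)))| ≤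
        C * ((2 + Real.log n) * Λ) ^ q * wt δ (ee n) (cube3 l p) u

/-- The path of the companions at the level `m`. -/
def pth (s : ℤ) (n : ℕ) (H : ℝ) (hH : 0 < H) (j : Fin 4) (F : ℤ → ℝ) (m : ℕ) : ℕ → ℤ → ℝ :=
  cut (gr 7 s) n F
    (if m = 0 then fun _ => F else RG (S1 s j n (H / 2 ^ m) (div_pos hH (by positivity))) n F)

theorem nd_zero {o : ℤ} (ho : o = 1 ∨ o = -1) {k : ℕ} {v : ℤ} (i : Fin 4) {f : Fin 4 → ℤ → ℝ}
    (h : ∀ y ∈ Win k v, f i y = 0) : nd o k v f = 0 := by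
  have h1 : nd o k v f = ndL o k v i f 0 := by
    rw [ndL_apply]
    refine nd_congr ho fun j y hy => ?_
    by_cases hj : j = i
    · subst hj
      rw [put_self, h y hy]; rfl
    · rw [put_ne hj]
  rw [h1, map_zero]

theorem dot_rst_le {K : ℕ} {V : ℤ} {f : ℤ → ℝ} (h : ∑ y ∈ W K V, |f y| ^ 2 ≤ 2 ^ (K + 5))
    (U : Finset ℤ) : dot U (rst K V f) (rst K V f) ≤ 2 ^ (K + 5) := by
  have hz : ∀ y ∈ U \ W K V, rst K V f y * rst K V f y = 0 := by
    intro y hy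
    rw [rst_eq_zero (mem_sdiff.mp hy).2, zero_mul]
  refine le_trans ?_ h
  unfold dot
  rw [← sum_inter_add_sum_sdiff U (W K V), sum_eq_zero hz, add_zero]
  refine (sum_le_sum fun y _ => (?_ : _ ≤ |f y| ^ 2)).trans ?_
  · rw [sq_abs, sq]
    exact rst_sq_le _ _ _ _
  · exact sum_le_sum_of_subset_of_nonneg inter_subset_right fun y _ _ => by positivity

/-- **One grid.** -/
theorem root_type {Λ C : ℝ} {q : ℕ} (hΛ : 1 ≤ Λ) (hC : 0 ≤ C)
    {n : ℕ} (hn : 1 ≤ n)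
    (hproc : ∀ (s : ℤ) (j : Fin 4) (δ : ℝ) (hδ : 0 < δ) (F : ℤ → ℝ),
      Comp n (ee n) (2 * δ) Λ (fun k => lift j (cut (gr 7 s) n F (RG (S1 s j n δ hδ) n F) k)))
    (hzero : ∀ (s : ℤ) (j : Fin 4) (H : ℝ) (F : ℤ → ℝ), (∀ x, |F x| ≤ H) →
      Comp n (ee n) H Λ (fun k => lift j (cut (gr 7 s) n F (fun _ => F) k)))
    (hnode : ∀ (δ Λ : ℝ), 0 < δ → 1 ≤ Λ → ∀ o : ℤ, (o = 1 ∨ o = -1) →
      ∀ (i : Fin 4) (h : ℕ → Fin 4 → ℤ → ℝ),
      (∀ j, j ≠ i → Comp n (ee n) δ Λ (fun k => lift j (h k j))) →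
      ∀ l ≤ n, ∀ (p : Pt) (u : Tri) (𝒩 : Finset (ℕ × ℤ)), (∀ N ∈ 𝒩, 1 ≤ N.1 ∧ N.1 ≤ l) →
        ∑ N ∈ 𝒩, |nd o N.1 N.2 (put i (h N.1) (a1 (fc i) l (p, u)))| ≤
          C * ((2 + Real.log n) * Λ) ^ q * wt δ (ee n) (cube3 l p) u)
    (c M : ℕ) (hM : 2 * (n : ℝ) ^ (2 * c + 1) ≤ 2 ^ M)
    (f : Fin 4 → ℤ → ℝ) {o : ℤ} (ho : o = 1 ∨ o = -1) {K : ℕ} (hK : K ≤ n) {V s : ℤ}
    {S : Finset (ℕ × ℤ)} (hS : ∀ N ∈ S, 1 ≤ N.1 ∧ N.1 ≤ K ∧ N.2 / 2 ^ (K - N.1) = V)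
    (hf : ∀ j x, |f j x| ≤ (n : ℝ) ^ c)
    (hav : ∀ N ∈ S, ∀ l, N.1 ≤ l → l ≤ K → ∀ j,
      ∑ y ∈ W l (N.2 / 2 ^ (l - N.1)), |f j y| ^ 2 ≤ 2 ^ (l + 5))
    (hW : ∀ N ∈ S, Win N.1 N.2 ⊆ (gr 7 s).cube N.1 (le N)) :
    ∑ N ∈ S, |nd o N.1 N.2 f| ≤ ((9 ^ (c + 1) + 2) * Λ ^ 2 +
      (8 * M + 1) * (2 ^ 9 * (C * ((2 + Real.log n) * Λ) ^ q))) * 2 ^ K := by
  classical
  have hn1 : (1 : ℝ) ≤ n := by exact_mod_cast hn
  have hlog : 0 ≤ Real.log n := Real.log_natCast_nonneg n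
  set H : ℝ := (n : ℝ) ^ c with hHdef
  have hH : 0 < H := by positivity
  set F : Fin 4 → ℤ → ℝ := fun j => rst K V (f j) with hF
  have hFH : ∀ j x, |F j x| ≤ H := fun j x => abs_rst_le hH.le (hf j) x
  set g : Fin 4 → ℕ → ℕ → ℤ → ℝ := fun j m => pth s n H hH j (F j) m with hg
  -- the companions
  have hcomp : ∀ j m, Comp n (ee n) (2 * (H / 2 ^ m)) Λ (fun k => lift j (g j m k)) := by
    intro j m
    by_cases hm : m = 0
    · subst hm
      have h1 := hzero s j H (F j) (hFH j)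
      have h2 := H321.Comp.mono h1 (δ' := 2 * (H / 2 ^ 0)) (Λ' := Λ)
        (by rw [pow_zero, div_one]; linarith) le_rfl
      simpa [hg, pth] using h2
    · have h1 := hproc s j (H / 2 ^ m) (div_pos hH (by positivity)) (F j)
      simpa [hg, pth, hm] using h1
  -- the points of the windows
  have hal : ∀ N ∈ S, ∀ j, ∀ y ∈ Win N.1 N.2, Al (gr 7 s) n (F j) N.1 y := by
    intro N hN j y hy
    obtain ⟨h1, h2, h3⟩ := hS N hN
    have h4 := al_window (s := s) (n := n) h2 (v := N.2) (f := f j)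
      (fun l hl hl' => hav N hN l hl hl' j) (x := y) hy
    rw [h3] at h4
    exact h4
  have hFf : ∀ N ∈ S, ∀ j, ∀ y ∈ Win N.1 N.2, F j y = f j y := by
    intro N hN j y hy
    obtain ⟨h1, h2, h3⟩ := hS N hN
    have h4 : y ∈ W K (N.2 / 2 ^ (K - N.1)) := W_sub h2 N.2 hy
    rw [h3] at h4
    exact rst_of_mem h4
  have hg0 : ∀ N ∈ S, ∀ j, ∀ y ∈ Win N.1 N.2, g j 0 N.1 y = f j y := by
    intro N hN j y hy
    simp only [hg, pth, if_true]
    rw [cut_of_al (hal N hN j y hy)]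
    exact hFf N hN j y hy
  -- the energy
  have hE : S.Nonempty → ∀ j, ∀ U : Finset ℤ, dot U (F j) (F j) ≤ 2 ^ (K + 5) := by
    rintro ⟨N, hN⟩ j U
    obtain ⟨h1, h2, h3⟩ := hS N hN
    have h4 := hav N hN K h2 le_rfl j
    rw [h3] at h4
    exact dot_rst_le h4 U
  set Pc : ℝ := C * ((2 + Real.log n) * Λ) ^ q with hPc
  have hPc0 : 0 ≤ Pc := by positivity
  have main := node_walk ho S f g M (X := 2 ^ 9 * Pc * 2 ^ K)
    (Y := (9 ^ (c + 1) + 2) * Λ ^ 2 * 2 ^ K) hg0 ?_ ?_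
  · refine main.trans (le_of_eq ?_)
    ring
  · -- one role
    intro i a _ hadj
    rcases S.eq_empty_or_nonempty with rfl | hne
    · simp only [sum_empty]
      positivity
    by_cases hi : a i = 0
    · rw [sum_eq_zero]
      · positivity
      · intro N hN
        rw [nd_zero ho i, abs_zero]
        intro y hy
        unfold H314.role
        rw [if_pos rfl, hi, Pi.sub_apply, hg0 N hN i y hy, sub_self]
    · have hδ : 0 < H / 2 ^ (a i) := div_pos hH (by positivity)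
      have key := node_role ho (S1 s i n (H / 2 ^ (a i)) hδ) n (F i) S
        (fun N hN => (hS N hN).2.1.trans hK) hW i (fun k j => g j (a j) k) (P := 4 * Pc)
        (by positivity) (by
          intro l hl y t 𝒩' h𝒩' hN'
          rw [S1_a, S1_W]
          have h1 := hnode (4 * (H / 2 ^ (a i))) Λ (by positivity) hΛ o ho i
            (fun k j => g j (a j) k) (fun j _ => by
              refine H321.Comp.mono (hcomp j (a j)) ?_ le_rfl
              have h2 : (2 : ℝ) ^ (a i) ≤ 2 ^ (a j + 1) :=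
                pow_le_pow_right₀ (by norm_num) (hadj i j)
              have h3 : (1 : ℝ) / 2 ^ (a j) ≤ 2 / 2 ^ (a i) := by
                rw [div_le_div_iff₀ (by positivity) (by positivity)]
                rw [pow_succ] at h2
                linarith
              calc 2 * (H / 2 ^ (a j)) = 2 * H * (1 / 2 ^ (a j)) := by ring
                _ ≤ 2 * H * (2 / 2 ^ (a i)) := mul_le_mul_of_nonneg_left h3 (by positivity)
                _ = 4 * (H / 2 ^ (a i)) := by ring)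
            l hl t.1 t.2 𝒩' (fun N hN => ⟨(hS N (h𝒩' hN)).1, (hN' N hN).1⟩)
          refine h1.trans (le_of_eq ?_)
          unfold wt
          ring)
        (S.biUnion fun N => (gr 7 s).cube n (le N))
        (fun N hN => subset_biUnion_of_mem (fun N => (gr 7 s).cube n (le N)) hN)
        (fun N => H314.role f g i a N.1) (by
          intro N hN y hy
          unfold H314.role
          rw [if_pos rfl, Pi.sub_apply, ← hFf N hN i y hy]
          simp only [hg, pth, if_neg hi]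
          rw [cut_of_al (hal N hN i y hy)])
        (by
          intro N _ j hj y _
          unfold H314.role
          rw [if_neg hj])
      refine key.trans ?_
      have h5 := hE hne i (S.biUnion fun N => (gr 7 s).cube n (le N))
      calc 4 * Pc * (4 * dot (S.biUnion fun N => (gr 7 s).cube n (le N)) (F i) (F i))
          ≤ 4 * Pc * (4 * 2 ^ (K + 5)) := by gcongr
        _ = 2 ^ 9 * Pc * 2 ^ K := by rw [pow_add]; ring
  · -- the final remainder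
    have hM' : 2 * (H / 2 ^ M) * (n : ℝ) ^ (c + 1) ≤ 1 := by
      have h1 : 2 * (H / 2 ^ M) * (n : ℝ) ^ (c + 1) = 2 * (n : ℝ) ^ (2 * c + 1) / 2 ^ M := by
        rw [hHdef]; field_simp; ring
      rw [h1, div_le_one (by positivity)]
      exact hM
    exact rem_sum_pow c hn hK (by positivity) hM' hΛ (hcomp 0 M) (hcomp 1 M) (hcomp 2 M)
      (fun x => hf 3 x) o hS

end

end Vale.Agent.P141.PL.H95
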