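import Vale.Agent.P141.PL.H95.Root
import Vale.Agent.P141.PL.H318.Comp

/-!
# P141, polylog bound: `StProc`
-/

namespace Vale.Agent.P141.PL.H95

open Finset
open Vale.Agent.P141.PL.H318 (RG sys1 csz kp comp_RG LamC)
open Vale.Agent.P141.PL.H314 (ee_pos ee_le)

noncomputable section

theorem log2_le {n : ℕ} (hn : 1 ≤ n) : (Nat.log 2 n : ℝ) ≤ 2 * Real.log n := by
  have hn1 : (1 : ℝ) ≤ n := by exact_mod_cast hn
  have h1 : (2 : ℝ) ^ (Nat.log 2 n) ≤ n := by exact_mod_cast Nat.pow_log_le_self 2 (by omega)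
  have h2 : (Nat.log 2 n : ℝ) * Real.log 2 ≤ Real.log n := by
    rw [← Real.log_pow]
    exact Real.log_le_log (by positivity) h1
  have h3 : (0.5 : ℝ) ≤ Real.log 2 := by
    have := Real.log_two_gt_d9
    linarith
  have h5 : (0 : ℝ) ≤ Nat.log 2 n := Nat.cast_nonneg _
  nlinarith

theorem stProc : StProc := by
  refine ⟨2 ^ 21, by norm_num, fun n s j δ hδ F hn => ?_⟩
  have hn1 : (1 : ℝ) ≤ n := by exact_mod_cast hn
  have hlog : 0 ≤ Real.log n := Real.log_natCast_nonneg n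
  have hne : (fc j).1 ≠ 0 ∧ (fc j).2.1 ≠ 0 ∧ (fc j).2.2 ≠ 0 := by
    fin_cases j <;> simp [fc]
  have h := comp_RG (c0 := 7) (σ := s) (c := fc j) (csz_fc j) hne.1 hne.2.1 hne.2.2 hδ
    (ee_pos n).le ((ee_le n).trans (by norm_num)) n (J0 := Nat.log 2 n + 1)
    (Nat.lt_pow_succ_log_self (by norm_num) n).le F (a := 4) (by norm_num)
  refine H321.Comp.mono h le_rfl ?_
  unfold LamC
  push_cast
  have h1 := log2_le hn
  have h0 : (0 : ℝ) ≤ Nat.log 2 n := Nat.cast_nonneg _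
  set J : ℝ := ((Nat.log 2 n : ℕ) : ℝ)
  set l : ℝ := Real.log n
  have h2 : (J + 1) * (J + 1 + 1) ≤ (2 * (2 + l)) * (2 * (2 + l)) :=
    mul_le_mul (by linarith) (by linarith) (by linarith) (by linarith)
  have h3 : 1 ≤ (2 + l) ^ 2 := one_le_pow₀ (by linarith)
  nlinarith

end

end Vale.Agent.P141.PL.H95
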