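import Vale.Agent.P141.PL.H95.Grid
import Vale.Agent.P141.PL.H571.Max

/-!
# P141, polylog bound: alive intervals

`Al g n F k x`: the interval of time `k` of `x` and all its ancestors of time `≤ n` have
`∑ F² ≤ 4 * 2 ^ (l + 7)`.  `cut g n F V k` = the path `V` with the dead intervals put to `0`.
`al_window`: if the averages of `f²` over the windows of a node and of all its ancestors up to the root
are at most one then the points of the window are alive, for `F = f` restricted to the root window.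
-/

namespace Vale.Agent.P141.PL.H95

open Finset
open Vale.Agent.P141.H315 (Grid dot)
open Vale.Agent.P141.PL.H571 (W)

/-- The interval of time `k` of `x` is alive. -/
def Al (g : Grid ℤ) (n : ℕ) (F : ℤ → ℝ) (k : ℕ) (x : ℤ) : Prop :=
  ∀ l, k ≤ l → l ≤ n → dot (g.cube l x) F F ≤ 4 * 2 ^ (l + 7)

theorem Al.mono {g : Grid ℤ} {n : ℕ} {F : ℤ → ℝ} {k k' : ℕ} {x : ℤ} (h : Al g n F k x)
    (hk : k ≤ k') : Al g n F k' x := fun l h1 h2 => h l (hk.trans h1) h2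

/-- nested cubes -/
theorem cube_eq_of_mem {g : Grid ℤ} {k l : ℕ} (hkl : k ≤ l) {x y : ℤ} (h : y ∈ g.cube k x) :
    g.cube l y = g.cube l x := by
  refine g.eq_of_mem l x y ?_
  induction l, hkl using Nat.le_induction with
  | base => exact h
  | succ l hkl ih => exact g.sub l x ih

theorem Al_congr {g : Grid ℤ} {n : ℕ} {F : ℤ → ℝ} {k : ℕ} {x y : ℤ} (h : y ∈ g.cube k x) :
    Al g n F k y ↔ Al g n F k x := by
  unfold Al
  refine forall_congr' fun l => forall_congr' fun hl => forall_congr' fun _ => ?_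
  rw [cube_eq_of_mem hl h]

open Classical in
/-- The path `V`, dead intervals put to `0`. -/
noncomputable def cut (g : Grid ℤ) (n : ℕ) (F : ℤ → ℝ) (V : ℕ → ℤ → ℝ) (k : ℕ) (x : ℤ) : ℝ :=
  if Al g n F k x then V k x else 0

theorem cut_of_al {g : Grid ℤ} {n : ℕ} {F : ℤ → ℝ} {V : ℕ → ℤ → ℝ} {k : ℕ} {x : ℤ}
    (h : Al g n F k x) : cut g n F V k x = V k x := by
  unfold cut; rw [if_pos h]

theorem cut_of_not {g : Grid ℤ} {n : ℕ} {F : ℤ → ℝ} {V : ℕ → ℤ → ℝ} {k : ℕ} {x : ℤ}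
    (h : ¬ Al g n F k x) : cut g n F V k x = 0 := by
  unfold cut; rw [if_neg h]

theorem cut_top {g : Grid ℤ} {n : ℕ} {F : ℤ → ℝ} {V : ℕ → ℤ → ℝ} {k : ℕ} (hk : n < k) (x : ℤ) :
    cut g n F V k x = V k x := cut_of_al fun l h1 h2 => by omega

/-- The function restricted to the window of the root. -/
noncomputable def rst (K : ℕ) (V : ℤ) (f : ℤ → ℝ) (x : ℤ) : ℝ := if x ∈ W K V then f x else 0

theorem rst_of_mem {K : ℕ} {V : ℤ} {f : ℤ → ℝ} {x : ℤ} (h : x ∈ W K V) : rst K V f x = f x :=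
  if_pos h

theorem rst_sq_le (K : ℕ) (V : ℤ) (f : ℤ → ℝ) (x : ℤ) : rst K V f x * rst K V f x ≤ f x * f x := by
  unfold rst
  split_ifs
  · exact le_rfl
  · simpa using mul_self_nonneg (f x)

theorem rst_eq_zero {K : ℕ} {V : ℤ} {f : ℤ → ℝ} {x : ℤ} (h : x ∉ W K V) : rst K V f x = 0 :=
  if_neg h

theorem abs_rst_le {K : ℕ} {V : ℤ} {f : ℤ → ℝ} {H : ℝ} (hH : 0 ≤ H) (h : ∀ x, |f x| ≤ H) (x : ℤ) :
    |rst K V f x| ≤ H := by
  unfold rst
  split_ifs
  · exact h x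
  · simpa using hH

theorem mem_W {k : ℕ} {v x : ℤ} : x ∈ W k v ↔ 2 ^ k * (v - 16) ≤ x ∧ x < 2 ^ k * (v + 16) := by
  unfold W; exact mem_Ico

/-- The parent's window contains the window. -/
theorem W_sub {k l : ℕ} (hkl : k ≤ l) (v : ℤ) : W k v ⊆ W l (v / 2 ^ (l - k)) := by
  intro x hx
  rw [mem_W] at hx ⊢
  have h2 : (0 : ℤ) < 2 ^ k := by positivity
  have h3 : (0 : ℤ) < 2 ^ (l - k) := by positivity
  have h4 : (1 : ℤ) ≤ 2 ^ (l - k) := one_le_pow₀ (by norm_num)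
  have e : (2 : ℤ) ^ l = 2 ^ k * 2 ^ (l - k) := by rw [← pow_add]; congr 1; omega
  have h5 := Int.mul_ediv_add_emod v (2 ^ (l - k))
  have h6 := Int.emod_nonneg v h3.ne'
  have h7 := Int.emod_lt_of_pos v h3
  rw [e]
  have a1 : 2 ^ (l - k) * (v / 2 ^ (l - k) - 16) ≤ v - 16 := by linarith
  have a2 : v + 16 ≤ 2 ^ (l - k) * (v / 2 ^ (l - k) + 16) := by
    have : v ≤ 2 ^ (l - k) * (v / 2 ^ (l - k)) + 2 ^ (l - k) - 1 := by omega
    nlinarith
  constructor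
  · calc 2 ^ k * 2 ^ (l - k) * (v / 2 ^ (l - k) - 16) =
        2 ^ k * (2 ^ (l - k) * (v / 2 ^ (l - k) - 16)) := by ring
      _ ≤ 2 ^ k * (v - 16) := mul_le_mul_of_nonneg_left a1 h2.le
      _ ≤ x := hx.1
  · calc x < 2 ^ k * (v + 16) := hx.2
      _ ≤ 2 ^ k * (2 ^ (l - k) * (v / 2 ^ (l - k) + 16)) := mul_le_mul_of_nonneg_left a2 h2.le
      _ = _ := by ring

/-- The interval of time `l ≥ k` of a point of `W k v` is inside the window of time `l + 4`. -/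
theorem cube_sub_W {s : ℤ} {k l : ℕ} (hkl : k ≤ l) {v x : ℤ} (hx : x ∈ W k v) :
    (gr 7 s).cube l x ⊆ W (l + 4) (v / 2 ^ (l + 4 - k)) := by
  intro y hy
  rw [gr_cube, mem_Ico] at hy
  rw [mem_W] at hx ⊢
  have h2 : (0 : ℤ) < 2 ^ k := by positivity
  have h3 : (0 : ℤ) < 2 ^ (l + 4 - k) := by positivity
  have e : (2 : ℤ) ^ (l + 4) = 2 ^ k * 2 ^ (l + 4 - k) := by rw [← pow_add]; congr 1; omega
  have e7 : (2 : ℤ) ^ (l + 7) = 8 * 2 ^ (l + 4) := by
    rw [show l + 7 = (l + 4) + 3 by omega, pow_add]; ring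
  have hkl' : (2 : ℤ) ^ k * 16 ≤ 2 ^ (l + 4) := by
    rw [pow_add]
    have : (2 : ℤ) ^ k ≤ 2 ^ l := pow_le_pow_right₀ (by norm_num) hkl
    linarith
  have h5 := Int.mul_ediv_add_emod v (2 ^ (l + 4 - k))
  have h6 := Int.emod_nonneg v h3.ne'
  have h7 := Int.emod_lt_of_pos v h3
  have q0 : (0 : ℤ) < 2 ^ (l + 7) := by positivity
  have q1 := Int.mul_ediv_add_emod (x + s) (2 ^ (l + 7))
  have q2 := Int.emod_nonneg (x + s) q0.ne'
  have q3 := Int.emod_lt_of_pos (x + s) q0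
  -- bounds of `2 ^ k * v`
  have b1 : 2 ^ (l + 4) * (v / 2 ^ (l + 4 - k)) ≤ 2 ^ k * v := by
    rw [e, mul_assoc]
    exact mul_le_mul_of_nonneg_left (by linarith) h2.le
  have b2 : 2 ^ k * v ≤ 2 ^ (l + 4) * (v / 2 ^ (l + 4 - k)) + 2 ^ (l + 4) := by
    rw [e, mul_assoc, ← mul_add]
    exact mul_le_mul_of_nonneg_left (by linarith) h2.le
  have c1 : 2 ^ k * (v - 16) = 2 ^ k * v - 2 ^ k * 16 := by ring
  have c2 : 2 ^ k * (v + 16) = 2 ^ k * v + 2 ^ k * 16 := by ring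
  rw [c1, c2] at hx
  constructor
  · have : 2 ^ (l + 4) * (v / 2 ^ (l + 4 - k) - 16) =
        2 ^ (l + 4) * (v / 2 ^ (l + 4 - k)) - 16 * 2 ^ (l + 4) := by ring
    rw [this]
    linarith [hy.1, hx.1]
  · have : 2 ^ (l + 4) * (v / 2 ^ (l + 4 - k) + 16) =
        2 ^ (l + 4) * (v / 2 ^ (l + 4 - k)) + 16 * 2 ^ (l + 4) := by ring
    rw [this]
    linarith [hy.2, hx.2]

/-- **The points of the windows are alive.** -/
theorem al_window {s : ℤ} {n K k : ℕ} (hkK : k ≤ K) {v : ℤ} {f : ℤ → ℝ}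
    (h : ∀ l, k ≤ l → l ≤ K → ∑ y ∈ W l (v / 2 ^ (l - k)), |f y| ^ 2 ≤ 2 ^ (l + 5)) {x : ℤ}
    (hx : x ∈ W k v) : Al (gr 7 s) n (rst K (v / 2 ^ (K - k)) f) k x := by
  intro l hkl hln
  have hsq : ∀ y, rst K (v / 2 ^ (K - k)) f y * rst K (v / 2 ^ (K - k)) f y ≤ |f y| ^ 2 := by
    intro y
    rw [sq_abs, sq]
    exact rst_sq_le _ _ _ _
  rcases Nat.lt_or_ge K (l + 4) with h1 | h1
  · have hz : ∀ y ∈ (gr 7 s).cube l x \ W K (v / 2 ^ (K - k)),
        rst K (v / 2 ^ (K - k)) f y * rst K (v / 2 ^ (K - k)) f y = 0 := by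
      intro y hy
      rw [rst_eq_zero (mem_sdiff.mp hy).2, zero_mul]
    have h2 : dot ((gr 7 s).cube l x) (rst K (v / 2 ^ (K - k)) f) (rst K (v / 2 ^ (K - k)) f) ≤
        ∑ y ∈ W K (v / 2 ^ (K - k)), |f y| ^ 2 := by
      unfold dot
      rw [← sum_inter_add_sum_sdiff ((gr 7 s).cube l x) (W K (v / 2 ^ (K - k))),
        sum_eq_zero hz, add_zero]
      refine (sum_le_sum fun y _ => hsq y).trans ?_
      exact sum_le_sum_of_subset_of_nonneg inter_subset_right fun y _ _ => by positivity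
    refine (h2.trans (h K hkK le_rfl)).trans ?_
    have : (2 : ℝ) ^ (K + 5) ≤ 2 ^ (l + 7 + 2) := pow_le_pow_right₀ (by norm_num) (by omega)
    rw [pow_add 2 (l + 7) 2] at this
    linarith
  · have h2 : dot ((gr 7 s).cube l x) (rst K (v / 2 ^ (K - k)) f) (rst K (v / 2 ^ (K - k)) f) ≤
        ∑ y ∈ W (l + 4) (v / 2 ^ (l + 4 - k)), |f y| ^ 2 := by
      unfold dot
      refine (sum_le_sum fun y _ => hsq y).trans ?_
      exact sum_le_sum_of_subset_of_nonneg (cube_sub_W hkl hx) fun y _ _ => by positivity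
    refine (h2.trans (h (l + 4) (by omega) h1)).trans (le_of_eq ?_)
    rw [show l + 4 + 5 = l + 7 + 2 by omega, pow_add 2 (l + 7) 2]
    ring

end Vale.Agent.P141.PL.H95
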