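import Vale.Agent.P141.PL.H95.Root
import Vale.Agent.P141.PL.H978.CompCut

/-!
# P141, polylog bound: `StZero`
-/

namespace Vale.Agent.P141.PL.H95

open Finset
open Vale.Agent.P141.H315 (Grid dot dot_self_nonneg)
open Vale.Agent.P141.PL.H315 (cube3 mem_cube3 gz card_cube3 atm e12 e13 e23 wN Nm Tri avg mx
  avg_prod_Nm_le)
open Vale.Agent.P141.PL.H314 (ee_pos ee_le)

noncomputable section

theorem cube3_zero (q : ℤ × ℤ × ℤ) : cube3 0 q = {q} := by
  ext y
  rw [mem_cube3, mem_singleton, H315.mem_iv, H315.mem_iv, H315.mem_iv]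
  simp only [pow_zero, Int.ediv_one]
  constructor
  · rintro ⟨h1, h2, h3⟩
    exact Prod.ext h1 (Prod.ext h2 h3)
  · rintro rfl
    exact ⟨rfl, rfl, rfl⟩

theorem mx_singleton (q : ℤ × ℤ × ℤ) (f : ℤ × ℤ × ℤ → ℝ) : mx {q} f = |f q| := by
  refine le_antisymm (H315.mx_le (abs_nonneg _) fun x hx => ?_)
    (H315.abs_le_mx (mem_singleton_self q) f)
  rw [mem_singleton.mp hx]

/-- At scale `0` the norm is the absolute value. -/
theorem Nm_zero {e : ℝ} (q : ℤ × ℤ × ℤ) (f : ℤ × ℤ × ℤ → ℝ) :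
    Nm e (cube3 0 q) f = |f q| := by
  rw [cube3_zero]
  unfold Nm avg
  rw [mx_singleton, card_singleton, sum_singleton, Nat.cast_one, inv_one, one_mul,
    ← sq_abs (f q), ← Real.rpow_natCast, ← Real.rpow_mul (abs_nonneg _)]
  have h1 : ((2 : ℕ) : ℝ) * ((1 - e) / 2) = 1 - e := by push_cast; ring
  rw [h1]
  rcases eq_or_lt_of_le (abs_nonneg (f q)) with h | h
  · rw [← h]
    by_cases he : e = 0
    · rw [he, Real.zero_rpow (by norm_num), zero_mul]
    · rw [Real.zero_rpow he, mul_zero]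
  · rw [← Real.rpow_add h]
    norm_num

/-- **Uniformity of bounded functions** (Loomis-Whitney). -/
theorem unif_bdd {e H : ℝ} (h0 : 0 ≤ e) (h1 : e ≤ 1) {G : ℤ × ℤ × ℤ → ℝ} (hG : ∀ q, |G q| ≤ H)
    (l : ℕ) (p : ℤ × ℤ × ℤ) (u : Tri) :
    |avg (cube3 l p) (fun q => G q * atm u q)| ≤ wN H e l p u := by
  have hH : 0 ≤ H := (abs_nonneg _).trans (hG p)
  have key := avg_prod_Nm_le (Nat.zero_le l) h0 h1 u p
  simp only [Nm_zero] at key
  have hc : (0 : ℝ) ≤ ((cube3 l p).card : ℝ)⁻¹ := by positivity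
  have h2 : |avg (cube3 l p) (fun q => G q * atm u q)| ≤
      H * avg (cube3 l p) (fun q => |e12 u.1 q| * |e13 u.2.1 q| * |e23 u.2.2 q|) := by
    unfold avg
    rw [abs_mul, abs_of_nonneg hc, mul_left_comm]
    refine mul_le_mul_of_nonneg_left ?_ hc
    rw [mul_sum]
    refine (abs_sum_le_sum_abs _ _).trans (sum_le_sum fun q _ => ?_)
    unfold atm
    rw [abs_mul, abs_mul, abs_mul]
    exact mul_le_mul_of_nonneg_right (hG q) (by positivity)
  unfold wN
  exact h2.trans (mul_le_mul_of_nonneg_left key hH)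

theorem abs_cut_le {g : Grid ℤ} {n : ℕ} {F : ℤ → ℝ} {H : ℝ} (hH : 0 ≤ H) (hF : ∀ x, |F x| ≤ H)
    (k : ℕ) (x : ℤ) : |cut g n F (fun _ => F) k x| ≤ H := by
  by_cases h : Al g n F k x
  · rw [cut_of_al h]; exact hF x
  · rw [cut_of_not h, abs_zero]; exact hH

theorem stZero : StZero := by
  refine ⟨2 ^ 14, by norm_num, fun n s j H F _ hF => ?_⟩
  have hH : 0 ≤ H := (abs_nonneg _).trans (hF 0)
  have hlog : 0 ≤ Real.log n := Real.log_natCast_nonneg n
  have h := H978.comp_cut (n := n) (e := ee n) (δ := H) (C1 := 0) (s := s) (F := F)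
    (V := fun _ => F) j le_rfl
    (fun k l _ _ p u => unif_bdd (ee_pos n).le ((ee_le n).trans (by norm_num))
      (fun q => abs_cut_le hH hF k _) l p u)
    (fun k l x _ => by
      have := dot_self_nonneg ((gr 7 s).cube l x) F
      linarith)
    (fun l x m _ N _ => by
      simp [dot])
  refine H321.Comp.mono h le_rfl ?_
  have h3 : (1 : ℝ) ≤ (2 + Real.log n) ^ 2 := one_le_pow₀ (by linarith)
  have e1 : (2 : ℝ) ^ 8 * (64 + 4 * 0 * (1 + 3 * (Nat.clog 2 n : ℝ) * ((Nat.clog 2 n : ℝ) + 1))) =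
      2 ^ 14 := by ring
  rw [e1]
  exact le_mul_of_one_le_right (by norm_num) h3

end

end Vale.Agent.P141.PL.H95
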