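import Vale.Agent.P141.PL.H95.Top
import Vale.Agent.P141.PL.H95.Proc
import Vale.Agent.P141.PL.H95.Zero
import Vale.Agent.P141.PL.H560.StNode

/-!
# P141, polylog bound: from the cost statement `StCost` to the target on the nodes
-/

namespace Vale.Agent.P141.PL.H95

open Finset
open Vale.Agent.P141.PL.H571 (RootTh)
open Vale.Agent.P141.PL.H620 (Node)

/-- The root estimates from the cost statement. -/
theorem rootTh_of_stCost (h : StCost) : ∃ m : ℕ, ∀ c : ℕ, ∃ C : ℝ, 0 ≤ C ∧ ∀ n : ℕ, 1 ≤ n →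
    RootTh n ((n : ℝ) ^ c) (C * (1 + Real.log (1 + n)) ^ m) :=
  rootTh_of stProc stZero (H560.stNode_of_stCost h)

/-- **The target on the nodes from the cost statement**: all exponents below `1/2`, one power of the
logarithm of the number of scales. -/
theorem hyp_of_stCost (h : StCost) : ∃ m : ℕ, ∀ d : Fin 4 → ℝ,
    (∀ j, 0 < d j) → (∀ j, d j < 1 / 2) → ∑ j, d j = 1 →
      ∃ C : ℝ, 0 ≤ C ∧ ∀ n : ℕ, Node n (C * (1 + Real.log (1 + n)) ^ m) d :=
  hyp_of stProc stZero (H560.stNode_of_stCost h)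

end Vale.Agent.P141.PL.H95
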