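import Vale.Agent.P141.PL.H95.All
import Vale.Agent.P141.PL.H990.Fin
import Vale.Agent.P141.PL.H620.Tup

/-!
# P141, polylog bound: the final assembly, no hypothesis left
-/

namespace Vale.Agent.P141.PL.H95

open Vale.Agent.P141.PL.H620 (HypAll)

/-- **The target on the nodes**, unconditionally. -/
theorem hypAll : ∃ m : ℕ, HypAll m := hyp_of_stCost H990.stCost

end Vale.Agent.P141.PL.H95
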