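import Vale.Agent.P141.PL.H95.Root
import Vale.Agent.P141.PL.H571.Node

/-!
# P141, polylog bound: from the inputs `StProc`, `StZero`, `StNode` to the node target

`hyp_of` is literally `∃ m, H620.HypAll m` (definition of `HypAll` in `H620/Main.lean`).
-/

namespace Vale.Agent.P141.PL.H95

open Finset
open Vale.Agent.P141.H315 (Grid dot)
open Vale.Agent.P141.PL.H315 (le)
open Vale.Agent.P141.PL.H314 (nd Win)
open Vale.Agent.P141.PL.H571 (W RootTh node_of_root)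
open Vale.Agent.P141.PL.H620 (Node nm)

noncomputable section

/-- Every node has a type. -/
theorem exists_type {n : ℕ} {N : ℕ × ℤ} (hN : N.1 ≤ n) :
    ∃ b : Bool, Win N.1 N.2 ⊆ (gr 7 (shf (n + 7) b)).cube N.1 (le N) := by
  obtain ⟨b, hb⟩ := exists_grid' (L := n + 7) (k := N.1) (by omega) (2 ^ N.1 * (N.2 - 16))
  have e : (2 : ℤ) ^ N.1 * (N.2 - 16) + 2 ^ (N.1 + 5) = 2 ^ N.1 * (N.2 + 16) := by
    rw [pow_add]; ring
  refine ⟨b, fun y hy => ?_⟩
  unfold Win at hy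
  rw [mem_Ico] at hy
  have h2 : (0 : ℤ) < 2 ^ (N.1 + 5) := by positivity
  refine hb _ le_rfl (by linarith) y hy.1 ?_
  rw [e]; exact hy.2

/-- The number of levels. -/
def lev (c n : ℕ) : ℕ := (2 * c + 1) * (Nat.log 2 n + 1) + 1

theorem lev_spec (c : ℕ) {n : ℕ} : 2 * (n : ℝ) ^ (2 * c + 1) ≤ 2 ^ lev c n := by
  have h1 : n ≤ 2 ^ (Nat.log 2 n + 1) := (Nat.lt_pow_succ_log_self (by norm_num) n).le
  have h2 : (n : ℝ) ≤ 2 ^ (Nat.log 2 n + 1) := by exact_mod_cast h1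
  have h3 : (n : ℝ) ^ (2 * c + 1) ≤ (2 ^ (Nat.log 2 n + 1)) ^ (2 * c + 1) :=
    pow_le_pow_left₀ (Nat.cast_nonneg n) h2 _
  unfold lev
  rw [pow_succ (2 : ℝ), mul_comm (2 * c + 1), pow_mul]
  linarith

theorem lev_le (c : ℕ) {n : ℕ} (hn : 1 ≤ n) :
    8 * (lev c n : ℝ) + 1 ≤ (32 * c + 25) * (1 + Real.log (1 + n)) := by
  have hn1 : (1 : ℝ) ≤ n := by exact_mod_cast hn
  have h1 : (2 : ℝ) ^ (Nat.log 2 n) ≤ n := by exact_mod_cast Nat.pow_log_le_self 2 (by omega)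
  have h2 : (Nat.log 2 n : ℝ) * Real.log 2 ≤ Real.log n := by
    rw [← Real.log_pow]
    exact Real.log_le_log (by positivity) h1
  have h3 : (0.5 : ℝ) ≤ Real.log 2 := by
    have := Real.log_two_gt_d9
    linarith
  have h4 : Real.log n ≤ Real.log (1 + n) := Real.log_le_log (by linarith) (by linarith)
  have h5 : (0 : ℝ) ≤ Nat.log 2 n := Nat.cast_nonneg _
  have h6 : (Nat.log 2 n : ℝ) ≤ 2 * Real.log (1 + n) := by nlinarith
  have h7 : 0 ≤ Real.log (1 + (n : ℝ)) := Real.log_nonneg (by linarith)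
  have hc : (0 : ℝ) ≤ c := Nat.cast_nonneg c
  unfold lev
  push_cast
  nlinarith

/-- **The root estimate** at height `n ^ c`; the power of the logarithm does not depend on `c`. -/
theorem rootTh_of (hproc : StProc) (hzero : StZero) (hnode : StNode) :
    ∃ m : ℕ, ∀ c : ℕ, ∃ C : ℝ, 0 ≤ C ∧ ∀ n : ℕ, 1 ≤ n →
      RootTh n ((n : ℝ) ^ c) (C * (1 + Real.log (1 + n)) ^ m) := by
  classical
  obtain ⟨A1, hA1, hproc⟩ := hproc
  obtain ⟨A2, hA2, hzero⟩ := hzero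
  obtain ⟨C, q, hC, hnode⟩ := hnode
  set A : ℝ := max A1 A2 with hAdef
  have hA : 1 ≤ A := hA1.trans (le_max_left _ _)
  have hA0 : 0 ≤ A := zero_le_one.trans hA
  refine ⟨3 * q + 5, fun c => ⟨2 * ((9 ^ (c + 1) + 2) * (4 * A) ^ 2 +
    (32 * c + 25) * (2 ^ 9 * (C * (8 * A) ^ q))), by positivity, fun n hn => ?_⟩⟩
  have hn1 : (1 : ℝ) ≤ n := by exact_mod_cast hn
  set L : ℝ := 1 + Real.log (1 + n) with hL
  have hL1 : 1 ≤ L := by
    have h7 : 0 ≤ Real.log (1 + (n : ℝ)) := Real.log_nonneg (by linarith)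
    linarith
  have hL0 : 0 ≤ L := zero_le_one.trans hL1
  have hlog : 0 ≤ Real.log n := Real.log_natCast_nonneg n
  have hlogL : 2 + Real.log n ≤ 2 * L := by
    have h4 : Real.log n ≤ Real.log (1 + n) := Real.log_le_log (by linarith) (by linarith)
    linarith
  set Λ : ℝ := A * (2 + Real.log n) ^ 2 with hΛdef
  have hl1 : 1 ≤ (2 + Real.log n) ^ 2 := one_le_pow₀ (by linarith)
  have hl0 : 0 ≤ (2 + Real.log n) ^ 2 := by positivity
  have hΛ : 1 ≤ Λ := one_le_mul_of_one_le_of_one_le hA hl1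
  have hΛ0 : 0 ≤ Λ := zero_le_one.trans hΛ
  have hΛL : Λ ≤ 4 * A * L ^ 2 := by
    have h1 : (2 + Real.log n) ^ 2 ≤ (2 * L) ^ 2 := pow_le_pow_left₀ (by linarith) hlogL 2
    calc Λ ≤ A * (2 * L) ^ 2 := mul_le_mul_of_nonneg_left h1 hA0
      _ = 4 * A * L ^ 2 := by ring
  intro f _ o ho K hK V 𝒩 hN hcl hf hav
  -- the type of a node
  have hty : ∀ N : ℕ × ℤ, ∃ b : Bool, N ∈ 𝒩 →
      Win N.1 N.2 ⊆ (gr 7 (shf (n + 7) b)).cube N.1 (le N) := by
    intro N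
    by_cases hN' : N ∈ 𝒩
    · obtain ⟨b, hb⟩ := exists_type (n := n) (N := N) ((hN N hN').2.1.trans hK)
      exact ⟨b, fun _ => hb⟩
    · exact ⟨false, fun h => absurd h hN'⟩
  choose ty hty using hty
  set B : ℝ := (9 ^ (c + 1) + 2) * Λ ^ 2 +
    (8 * lev c n + 1) * (2 ^ 9 * (C * ((2 + Real.log n) * Λ) ^ q)) with hB
  have htype : ∀ b : Bool, ∑ N ∈ 𝒩.filter (fun N => ty N = b), |nd o N.1 N.2 f| ≤ B * 2 ^ K := by
    intro b
    refine root_type hΛ hC hn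
      (fun s j δ hδ F => H321.Comp.mono (hproc n s j δ hδ F hn) le_rfl
        (mul_le_mul_of_nonneg_right (le_max_left _ _) hl0))
      (fun s j H F hF => H321.Comp.mono (hzero n s j H F hn hF) le_rfl
        (mul_le_mul_of_nonneg_right (le_max_right _ _) hl0))
      (hnode n hn) c (lev c n) (lev_spec c) f ho hK (V := V) (s := shf (n + 7) b) ?_ hf ?_ ?_
    · intro N hN'
      exact hN N (mem_filter.mp hN').1
    · intro N hN' l hl hl' j
      exact hav _ (hcl N (mem_filter.mp hN').1 l hl hl') j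
    · intro N hN'
      rw [mem_filter] at hN'
      rw [← hN'.2]
      exact hty N hN'.1
  have hsum : ∑ N ∈ 𝒩, ((4 : ℝ) ^ N.1)⁻¹ * |H620.loc1 N.1 (H620.nn o N.2 0 0) f| =
      ∑ N ∈ 𝒩, |nd o N.1 N.2 f| := by
    refine sum_congr rfl fun N _ => ?_
    unfold nd
    rw [abs_mul, abs_of_pos (show (0 : ℝ) < ((4 : ℝ) ^ N.1)⁻¹ by positivity)]
  rw [hsum, ← sum_filter_add_sum_filter_not 𝒩 (fun N => ty N = true)]
  have hnot : 𝒩.filter (fun N => ¬ ty N = true) = 𝒩.filter (fun N => ty N = false) := by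
    refine filter_congr fun N _ => ?_
    simp
  rw [hnot]
  have hBle : B ≤ ((9 ^ (c + 1) + 2) * (4 * A) ^ 2 + (32 * c + 25) * (2 ^ 9 * (C * (8 * A) ^ q))) *
      L ^ (3 * q + 5) := by
    have h1 := lev_le c hn
    have h2 : ((2 + Real.log n) * Λ) ^ q ≤ (8 * A) ^ q * L ^ (3 * q) := by
      have h3 : (2 + Real.log n) * Λ ≤ 8 * A * L ^ 3 := by
        calc (2 + Real.log n) * Λ ≤ (2 * L) * (4 * A * L ^ 2) :=
              mul_le_mul hlogL hΛL hΛ0 (by linarith)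
          _ = 8 * A * L ^ 3 := by ring
      rw [pow_mul, ← mul_pow]
      exact pow_le_pow_left₀ (mul_nonneg (by linarith) hΛ0) h3 q
    have h3 : Λ ^ 2 ≤ (4 * A) ^ 2 * L ^ (3 * q + 5) := by
      have h4 : L ^ 4 ≤ L ^ (3 * q + 5) := pow_le_pow_right₀ hL1 (by omega)
      calc Λ ^ 2 ≤ (4 * A * L ^ 2) ^ 2 := pow_le_pow_left₀ hΛ0 hΛL 2
        _ = (4 * A) ^ 2 * L ^ 4 := by ring
        _ ≤ _ := mul_le_mul_of_nonneg_left h4 (by positivity)
    have h4 : (9 ^ (c + 1) + 2) * Λ ^ 2 ≤ (9 ^ (c + 1) + 2) * (4 * A) ^ 2 * L ^ (3 * q + 5) := by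
      rw [mul_assoc]
      exact mul_le_mul_of_nonneg_left h3 (by positivity)
    have h5 : (8 * (lev c n : ℝ) + 1) * (2 ^ 9 * (C * ((2 + Real.log n) * Λ) ^ q)) ≤
        ((32 * c + 25) * L) * (2 ^ 9 * (C * ((8 * A) ^ q * L ^ (3 * q)))) := by
      have h8 : 0 ≤ ((2 + Real.log n) * Λ) ^ q := pow_nonneg (mul_nonneg (by linarith) hΛ0) q
      refine mul_le_mul h1 ?_ (by positivity) (by positivity)
      exact mul_le_mul_of_nonneg_left (mul_le_mul_of_nonneg_left h2 hC) (by norm_num)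
    have h6 : ((32 * c + 25) * L) * (2 ^ 9 * (C * ((8 * A) ^ q * L ^ (3 * q)))) ≤
        (32 * c + 25) * (2 ^ 9 * (C * (8 * A) ^ q)) * L ^ (3 * q + 5) := by
      have h7 : L ^ (3 * q + 1) ≤ L ^ (3 * q + 5) := pow_le_pow_right₀ hL1 (by omega)
      calc _ = (32 * c + 25) * (2 ^ 9 * (C * (8 * A) ^ q)) * L ^ (3 * q + 1) := by
            rw [pow_succ L (3 * q)]; ring
        _ ≤ _ := mul_le_mul_of_nonneg_left h7 (by positivity)
    rw [hB]
    refine (add_le_add h4 (h5.trans h6)).trans (le_of_eq ?_)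
    ring
  have h6 := htype true
  have h7 := htype false
  calc _ ≤ B * 2 ^ K + B * 2 ^ K := add_le_add h6 h7
    _ = 2 * B * 2 ^ K := by ring
    _ ≤ 2 * (((9 ^ (c + 1) + 2) * (4 * A) ^ 2 + (32 * c + 25) * (2 ^ 9 * (C * (8 * A) ^ q))) *
      L ^ (3 * q + 5)) * 2 ^ K := by gcongr
    _ = _ := by ring

theorem nm_nonneg {α : Type*} (d : ℝ) (F : α → ℝ) : 0 ≤ nm d F :=
  Real.rpow_nonneg (tsum_nonneg fun _ => Real.rpow_nonneg (abs_nonneg _) _) _

theorem Node.mono {n : ℕ} {B B' : ℝ} {d : Fin 4 → ℝ} (h : Node n B d) (hB : B ≤ B') :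
    Node n B' d := fun f hf o ho V => (h f hf o ho V).trans
  (mul_le_mul_of_nonneg_right hB (prod_nonneg fun _ _ => nm_nonneg _ _))

theorem rootTh_zero (H : ℝ) : RootTh 0 H 0 := by
  intro f _ o _ K hK V 𝒩 hN _ _ _
  have : 𝒩 = ∅ := by
    rw [eq_empty_iff_forall_notMem]
    intro N h
    have := hN N h
    omega
  rw [this, sum_empty, zero_mul]

/-- **All exponents below `1/2`**, from the root estimates. -/
theorem hyp_of_root {m : ℕ} (hR : ∀ c : ℕ, ∃ C : ℝ, 0 ≤ C ∧ ∀ n : ℕ, 1 ≤ n →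
      RootTh n ((n : ℝ) ^ c) (C * (1 + Real.log (1 + n)) ^ m)) (d : Fin 4 → ℝ)
    (hd : ∀ j, 0 < d j) (hd2 : ∀ j, d j < 1 / 2) (hd1 : ∑ j, d j = 1) :
    ∃ C : ℝ, 0 ≤ C ∧ ∀ n : ℕ, Node n (C * (1 + Real.log (1 + n)) ^ m) d := by
  obtain ⟨D, hD1, hD2⟩ : ∃ D : ℝ, (∀ j, d j < D) ∧ D < 1 / 2 := by
    obtain ⟨D, h1, h2⟩ := exists_between
      ((Finset.sup'_lt_iff (s := (univ : Finset (Fin 4))) ⟨0, mem_univ _⟩ (f := d)).mpr
        fun j _ => hd2 j)
    exact ⟨D, fun j => (Finset.le_sup' d (mem_univ j)).trans_lt h1, h2⟩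
  have hD0 : 0 < D := (hd 0).trans (hD1 0)
  set q : ℝ := 1 / D with hq
  have hq2 : 2 < q := by
    rw [hq, lt_div_iff₀ hD0]; linarith
  have hdq : ∀ j, d j * q < 1 := by
    intro j
    rw [hq, mul_one_div, div_lt_one hD0]; exact hD1 j
  obtain ⟨C₁, hC₁, hroot⟩ := node_of_root hq2 d hd hd1 hdq
  obtain ⟨c, hc⟩ := exists_nat_ge (2 / (q - 2))
  obtain ⟨C, hC, hR⟩ := hR c
  refine ⟨C₁ * (C + 1), by positivity, fun n => ?_⟩
  have hL1 : 1 ≤ 1 + Real.log (1 + (n : ℝ)) := by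
    have h7 : 0 ≤ Real.log (1 + (n : ℝ)) := Real.log_nonneg (by
      have : (0 : ℝ) ≤ n := Nat.cast_nonneg n
      linarith)
    linarith
  have hLm : 1 ≤ (1 + Real.log (1 + (n : ℝ))) ^ m := one_le_pow₀ hL1
  rcases Nat.eq_zero_or_pos n with rfl | hn
  · have h1 := hroot 0 1 0 one_pos le_rfl (rootTh_zero 1)
    refine Node.mono h1 ?_
    simp only [Nat.cast_zero, zero_mul, add_zero, mul_zero]
    positivity
  · have hn1 : (1 : ℝ) ≤ n := by exact_mod_cast hn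
    have hn0 : (0 : ℝ) < n := by linarith
    have h1 := hroot n ((n : ℝ) ^ c) _ (by positivity) (by positivity) (hR n hn)
    refine Node.mono h1 ?_
    have h2 : (n : ℝ) * ((n : ℝ) ^ c) ^ (-(q - 2) / 2) ≤ 1 := by
      rw [← Real.rpow_natCast, ← Real.rpow_mul hn0.le]
      have h3 : (c : ℝ) * (-(q - 2) / 2) ≤ -1 := by
        have h4 : 2 ≤ (c : ℝ) * (q - 2) := by
          rwa [div_le_iff₀ (by linarith)] at hc
        linarith
      calc (n : ℝ) * (n : ℝ) ^ ((c : ℝ) * (-(q - 2) / 2)) ≤ (n : ℝ) * (n : ℝ) ^ (-1 : ℝ) := by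
            refine mul_le_mul_of_nonneg_left ?_ hn0.le
            exact Real.rpow_le_rpow_of_exponent_le hn1 h3
        _ = 1 := by rw [Real.rpow_neg_one, mul_inv_cancel₀ hn0.ne']
    rw [mul_assoc]
    refine mul_le_mul_of_nonneg_left ?_ hC₁.le
    nlinarith

/-- **The target on the nodes**, all exponents below `1/2`, one power of the logarithm. -/
theorem hyp_of (hproc : StProc) (hzero : StZero) (hnode : StNode) : ∃ m : ℕ, ∀ d : Fin 4 → ℝ,
    (∀ j, 0 < d j) → (∀ j, d j < 1 / 2) → ∑ j, d j = 1 →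
      ∃ C : ℝ, 0 ≤ C ∧ ∀ n : ℕ, Node n (C * (1 + Real.log (1 + n)) ^ m) d := by
  obtain ⟨m, hm⟩ := rootTh_of hproc hzero hnode
  exact ⟨m, fun d hd hd2 hd1 => hyp_of_root hm d hd hd2 hd1⟩

end

end Vale.Agent.P141.PL.H95
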